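import Vale.Agent.P047.H671.Main

open Vale.Agent.P047 Finset

/-- (1) The Gopalan-Servedio square-root bound fails in both forms, by a power of the degree, at
every degree `d ≥ 1`.  (2), (3) The same happens at every Fourier level `k ≥ 1`: for all `d ≥ k`
some Boolean function of degree at most `d` with the parity of `k` has no Fourier coefficient below
level `k` and sum of level-`k` coefficients at least `(c (d/k)^(1/2+ε))^k`. -/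
theorem Vale.Agent.Results.P047.EveryLevel.result :
    ((∃ ε : ℝ, 0 < ε ∧ ∃ c : ℝ, 0 < c ∧ ∀ d : ℕ, 1 ≤ d → ∃ n : ℕ, 1 ≤ n ∧ ∃ f : Cube n → ℝ,
      IsBoolean f ∧ degree f ≤ d ∧ c * (d : ℝ) ^ (1 / 2 + ε) ≤ linearSum f) ∧
    (¬ ∃ C : ℝ, ∀ n : ℕ, 1 ≤ n → ∀ f : Cube n → ℝ, IsBoolean f →
      linearSum f ≤ C * Real.sqrt (degree f)) ∧
    (∃ n : ℕ, 1 ≤ n ∧ ∃ f : Cube n → ℝ, IsBoolean f ∧ Real.sqrt (degree f) < linearSum f)) ∧
    (∃ ε : ℝ, 0 < ε ∧ ∃ c : ℝ, 0 < c ∧ ∀ k d : ℕ, 1 ≤ k → k ≤ d →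
      ∃ n : ℕ, 1 ≤ n ∧ ∃ f : Cube n → ℝ, IsBoolean f ∧ degree f ≤ d ∧
        (∀ x, f (fun i => - x i) = (-1) ^ k * f x) ∧
        (∀ S : Finset (Fin n), S.card < k → fourierCoeff f S = 0) ∧
        (c * ((d : ℝ) / k) ^ (1 / 2 + ε)) ^ k ≤
          ∑ S ∈ powersetCard k (univ : Finset (Fin n)), fourierCoeff f S) ∧
    (∀ k : ℕ, 1 ≤ k → ¬ ∃ C : ℝ, ∀ n : ℕ, 1 ≤ n → ∀ f : Cube n → ℝ, IsBoolean f →
      ∑ S ∈ powersetCard k (univ : Finset (Fin n)), |fourierCoeff f S| ≤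
        C * Real.sqrt (degree f) ^ k) :=
  ⟨Vale.Agent.P047.main, H671.levels, H671.no_level_bound⟩
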