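import Vale.Agent.P047.H594.Main

open Vale.Agent.P047 Filter
open scoped Topology

/-- `M(d) = maxLinearSum d` grows like `d ^ (α + o(1))` for an exponent `α` with `1/2 < α ≤ 1`,
with `M(d) ≤ (d + 1) ^ α` for every `d ≥ 1` and lower bounds by balanced functions; hence both
forms of the square-root bound fail. -/
theorem Vale.Agent.Results.P047.GrowthExponent.result :
    (∀ d : ℕ, 1 ≤ d → IsLUB (linearSums d) (maxLinearSum d)) ∧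
    (∃ α : ℝ, 1 / 2 < α ∧ α ≤ 1 ∧
      Tendsto (fun d : ℕ => Real.log (maxLinearSum d) / Real.log d) atTop (𝓝 α) ∧
      (∀ d : ℕ, 1 ≤ d → maxLinearSum d ≤ ((d : ℝ) + 1) ^ α) ∧
      (∀ ε : ℝ, 0 < ε → ∃ c : ℝ, 0 < c ∧ ∀ d : ℕ, 1 ≤ d → ∃ n : ℕ, 1 ≤ n ∧
        ∃ f : Cube n → ℝ, IsBoolean f ∧ fourierCoeff f ∅ = 0 ∧ degree f ≤ d ∧
          c * (d : ℝ) ^ (α - ε) ≤ linearSum f)) ∧
    (∃ ε : ℝ, 0 < ε ∧ ∃ c : ℝ, 0 < c ∧ ∀ d : ℕ, 1 ≤ d → ∃ n : ℕ, 1 ≤ n ∧ ∃ f : Cube n → ℝ,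
      IsBoolean f ∧ degree f ≤ d ∧ c * (d : ℝ) ^ (1 / 2 + ε) ≤ linearSum f) ∧
    (¬ ∃ C : ℝ, ∀ n : ℕ, 1 ≤ n → ∀ f : Cube n → ℝ, IsBoolean f →
      linearSum f ≤ C * Real.sqrt (degree f)) ∧
    (∃ n : ℕ, 1 ≤ n ∧ ∃ f : Cube n → ℝ, IsBoolean f ∧ Real.sqrt (degree f) < linearSum f) :=
  ⟨fun _ hd => H594.isLUB_maxLinearSum hd,
    ⟨H594.alpha, H594.half_lt_alpha, H594.alpha_le_one, H594.tendsto_exponent,
      fun _ hd => H594.maxLinearSum_le hd, fun _ hε => H594.lower hε⟩,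
    Vale.Agent.P047.main⟩
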